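import Vale.Agent.P038.H674.Main

/-!
# The expansion inequality in a counterexample with the fewest arcs, and the conjecture
-/

namespace Vale.Agent.P038.H674

open Finset

variable {V : Type*} [Fintype V]

/-- A counterexample. -/
def CE (D : OGraph V) : Prop := ∀ v, (N2 D v).card < (N1 D v).card

open Classical in
/-- The set of arcs. -/
noncomputable def arcs (D : OGraph V) : Finset (V × V) := univ.filter fun p => D.arc p.1 p.2

/-- Delete all arcs from `X` to `Z`. -/
def del (D : OGraph V) (X Z : Finset V) : OGraph V where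
  arc a b := D.arc a b ∧ ¬ (a ∈ X ∧ b ∈ Z)
  loopless v h := D.loopless v h.1
  asymm _ _ h h' := D.asymm _ _ h.1 h'.1

theorem cl_union [DecidableEq V] (D : OGraph V) (S T : Finset V) :
    cl D (S ∪ T) = cl D S ∪ cl D T := by
  ext x
  simp only [mem_cl, Finset.mem_union]
  constructor
  · rintro ((h | h) | ⟨y, hy | hy, h⟩)
    · exact Or.inl (Or.inl h)
    · exact Or.inr (Or.inl h)
    · exact Or.inl (Or.inr ⟨y, hy, h⟩)
    · exact Or.inr (Or.inr ⟨y, hy, h⟩)
  · rintro ((h | ⟨y, hy, h⟩) | (h | ⟨y, hy, h⟩))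
    · exact Or.inl (Or.inl h)
    · exact Or.inr ⟨y, Or.inl hy, h⟩
    · exact Or.inl (Or.inr h)
    · exact Or.inr ⟨y, Or.inr hy, h⟩

/-- The expansion inequality in a counterexample with the fewest arcs. -/
theorem stepG {D : OGraph V} (hD : CE D)
    (hmin : ∀ D' : OGraph V, (arcs D').card < (arcs D).card → ¬ CE D')
    (X : Finset V) (hX : cl D X ≠ X) : cc D (cl D X) < cc D X := by
  classical
  by_contra hcon
  push Not at hcon
  set L := cl D X \ X with hL
  have hLX : Disjoint L X := Finset.sdiff_disjoint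
  have hLne : L.Nonempty := by
    rw [hL, Finset.sdiff_nonempty]
    intro h
    exact hX (Finset.Subset.antisymm h (subset_cl D X))
  have hXL : X ∪ L = cl D X := by
    rw [hL]
    exact Finset.union_sdiff_of_subset (subset_cl D X)
  -- d
  set d : Finset V → ℤ := fun T => ((cl D T \ X).card : ℤ) - 2 * (T.card : ℤ) with hd
  have hd0 : d ∅ = 0 := by
    have : cl D (∅ : Finset V) = ∅ := by
      rw [Finset.eq_empty_iff_forall_notMem]
      intro z hz
      rw [mem_cl] at hz
      simp at hz
    simp [hd, this]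
  have hdL : 0 ≤ d L := by
    have e1 : cl D (cl D X) \ cl D X = (cl D L \ X) \ L := by
      ext z
      rw [← hXL, cl_union, Finset.mem_sdiff, Finset.mem_sdiff, Finset.mem_sdiff,
        Finset.mem_union, Finset.mem_union]
      constructor
      · rintro ⟨h1 | h1, h2⟩
        · exfalso
          have h3 : z ∈ X ∪ L := by
            rw [hXL]
            exact h1
          exact h2 (Finset.mem_union.1 h3)
        · exact ⟨⟨h1, fun h3 => h2 (Or.inl h3)⟩, fun h3 => h2 (Or.inr h3)⟩
      · rintro ⟨⟨h1, h2⟩, h3⟩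
        exact ⟨Or.inr h1, fun h4 => h4.elim h2 h3⟩
    have e2 : L ⊆ cl D L \ X := by
      intro z hz
      exact Finset.mem_sdiff.2 ⟨subset_cl D L hz, Finset.disjoint_left.1 hLX hz⟩
    have e3 : ((cl D (cl D X) \ cl D X).card : ℤ) = ((cl D L \ X).card : ℤ) - (L.card : ℤ) := by
      rw [e1, Finset.card_sdiff_of_subset e2, Nat.cast_sub (Finset.card_le_card e2)]
    have e4 : ((L.card : ℕ) : ℤ) ≤ ((cl D (cl D X) \ cl D X).card : ℤ) := by
      have := hcon
      rw [cc_eq, cc_eq, ← hL] at this
      exact_mod_cast this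
    simp only [hd]
    linarith
  -- minimiser of d among the proper subsets of L
  obtain ⟨T, hT, hTmin⟩ := Finset.exists_min_image L.ssubsets d
    ⟨∅, Finset.mem_ssubsets.2 (Finset.empty_ssubset.2 hLne)⟩
  rw [Finset.mem_ssubsets] at hT
  have hmin2 : ∀ S ⊆ L, d T ≤ d S := by
    intro S hS
    rcases eq_or_ne S L with h1 | h1
    · subst h1
      have := hTmin ∅ (Finset.mem_ssubsets.2 (Finset.empty_ssubset.2 hLne))
      rw [hd0] at this
      linarith
    · exact hTmin S (Finset.mem_ssubsets.2 (lt_of_le_of_ne hS h1))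
  set Z := L \ T with hZ
  set D' := del D X Z with hD'
  have hcount : ∀ Dy ⊆ Z, 2 * Dy.card ≤ (cl D Dy \ (cl D T ∪ X)).card := by
    intro Dy hDy
    have h1 := hmin2 (T ∪ Dy) (Finset.union_subset hT.1 (hDy.trans Finset.sdiff_subset))
    have h2 : Disjoint T Dy := by
      rw [Finset.disjoint_left]
      intro z hz hz2
      exact (Finset.mem_sdiff.1 (hDy hz2)).2 hz
    have h3 : cl D (T ∪ Dy) \ X ⊆ (cl D T \ X) ∪ (cl D Dy \ (cl D T ∪ X)) := by
      intro z hz
      rw [cl_union] at hz
      obtain ⟨hz1, hz2⟩ := Finset.mem_sdiff.1 hz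
      by_cases hzT : z ∈ cl D T
      · exact Finset.mem_union_left _ (Finset.mem_sdiff.2 ⟨hzT, hz2⟩)
      · refine Finset.mem_union_right _ (Finset.mem_sdiff.2 ⟨?_, ?_⟩)
        · exact (Finset.mem_union.1 hz1).resolve_left hzT
        · intro h4
          exact (Finset.mem_union.1 h4).elim hzT hz2
    have h4 := (Finset.card_le_card h3).trans (Finset.card_union_le _ _)
    simp only [hd] at h1
    rw [Finset.card_union_of_disjoint h2] at h1
    push_cast at h1
    have h5 : ((cl D (T ∪ Dy) \ X).card : ℤ) ≤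
        ((cl D T \ X).card : ℤ) + ((cl D Dy \ (cl D T ∪ X)).card : ℤ) := by exact_mod_cast h4
    have h6 : (2 * Dy.card : ℤ) ≤ ((cl D Dy \ (cl D T ∪ X)).card : ℤ) := by linarith
    exact_mod_cast h6
  -- D' is a counterexample
  have hCE : CE D' := by
    intro v
    by_cases hv : v ∈ X
    · set Dy := N1 D v ∩ Z with hDy
      set Ey := cl D Dy \ (cl D T ∪ X) with hEy
      have hc := hcount Dy Finset.inter_subset_right
      rw [← hEy] at hc
      have hN1 : N1 D' v = N1 D v \ Dy := by
        ext z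
        rw [mem_N1, Finset.mem_sdiff, hDy, Finset.mem_inter, mem_N1]
        constructor
        · rintro ⟨h1, h2⟩
          exact ⟨h1, fun h3 => h2 ⟨hv, h3.2⟩⟩
        · rintro ⟨h1, h2⟩
          exact ⟨h1, fun h3 => h2 ⟨h1, h3.2⟩⟩
      have hEsub : Ey ⊆ N2 D v ∪ Dy := by
        intro z hz
        obtain ⟨hz1, hz2⟩ := Finset.mem_sdiff.1 hz
        have hzX : z ∉ X := fun h3 => hz2 (Finset.mem_union_right _ h3)
        have hzT : z ∉ cl D T := fun h3 => hz2 (Finset.mem_union_left _ h3)
        rw [mem_cl] at hz1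
        rcases hz1 with hz1 | ⟨c, hc, hcz⟩
        · exact Finset.mem_union_right _ hz1
        · have hyc : D.arc v c := mem_N1.1 (Finset.mem_inter.1 hc).1
          by_cases hyz : D.arc v z
          · refine Finset.mem_union_right _ (Finset.mem_inter.2 ⟨mem_N1.2 hyz, ?_⟩)
            refine Finset.mem_sdiff.2 ⟨?_, ?_⟩
            · rw [hL]
              exact Finset.mem_sdiff.2 ⟨mem_cl.2 (Or.inr ⟨v, hv, hyz⟩), hzX⟩
            · intro h3
              exact hzT (mem_cl.2 (Or.inl h3))
          · refine Finset.mem_union_left _ (mem_N2.2 ⟨?_, hyz, c, hyc, hcz⟩)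
            rintro rfl
            exact hzX hv
      have hN2 : N2 D' v ⊆ (N2 D v ∪ Dy) \ Ey := by
        intro z hz
        rw [mem_N2] at hz
        obtain ⟨hzv, hvz, c, hvc, hcz⟩ := hz
        -- c is in X or in T
        have hcXT : c ∈ X ∨ c ∈ T := by
          by_cases hcX : c ∈ X
          · exact Or.inl hcX
          · right
            by_contra hcT
            apply hvc.2
            refine ⟨hv, Finset.mem_sdiff.2 ⟨?_, hcT⟩⟩
            rw [hL]
            exact Finset.mem_sdiff.2 ⟨mem_cl.2 (Or.inr ⟨v, hv, hvc.1⟩), hcX⟩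
        refine Finset.mem_sdiff.2 ⟨?_, ?_⟩
        · by_cases hvz' : D.arc v z
          · refine Finset.mem_union_right _ (Finset.mem_inter.2 ⟨mem_N1.2 hvz', ?_⟩)
            by_contra hzZ
            exact hvz ⟨hvz', fun h3 => hzZ h3.2⟩
          · exact Finset.mem_union_left _ (mem_N2.2 ⟨hzv, hvz', c, hvc.1, hcz.1⟩)
        · intro hzE
          obtain ⟨-, hz2⟩ := Finset.mem_sdiff.1 hzE
          have hzX : z ∉ X := fun h3 => hz2 (Finset.mem_union_right _ h3)
          have hzT : z ∉ cl D T := fun h3 => hz2 (Finset.mem_union_left _ h3)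
          rcases hcXT with hc | hc
          · apply hcz.2
            refine ⟨hc, Finset.mem_sdiff.2 ⟨?_, fun h3 => hzT (mem_cl.2 (Or.inl h3))⟩⟩
            rw [hL]
            exact Finset.mem_sdiff.2 ⟨mem_cl.2 (Or.inr ⟨c, hc, hcz.1⟩), hzX⟩
          · exact hzT (mem_cl.2 (Or.inr ⟨c, hc, hcz.1⟩))
      have h1 := Finset.card_le_card hN2
      rw [Finset.card_sdiff_of_subset hEsub] at h1
      have h2 := Finset.card_union_le (N2 D v) Dy
      have h3 : Dy ⊆ N1 D v := Finset.inter_subset_left
      have h4 := Finset.card_le_card h3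
      have h5 := hD v
      have h6 := Finset.card_le_card hEsub
      rw [hN1, Finset.card_sdiff_of_subset h3]
      omega
    · have hN1 : N1 D' v = N1 D v := by
        ext z
        rw [mem_N1, mem_N1]
        exact ⟨fun h => h.1, fun h => ⟨h, fun h3 => hv h3.1⟩⟩
      have hN2 : N2 D' v ⊆ N2 D v := by
        intro z hz
        rw [mem_N2] at hz ⊢
        obtain ⟨hzv, hvz, c, hvc, hcz⟩ := hz
        exact ⟨hzv, fun h => hvz ⟨h, fun h3 => hv h3.1⟩, c, hvc.1, hcz.1⟩
      rw [hN1]
      exact (Finset.card_le_card hN2).trans_lt (hD v)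
  refine hmin D' (Finset.card_lt_card ?_) hCE
  obtain ⟨z, hzL, hzT⟩ := Finset.exists_of_ssubset hT
  have hz := hzL
  rw [hL, Finset.mem_sdiff, mem_cl] at hz
  obtain ⟨y, hy, hyz⟩ := hz.1.resolve_left hz.2
  rw [Finset.ssubset_iff_of_subset]
  · refine ⟨(y, z), ?_, ?_⟩
    · simp [arcs, hyz]
    · intro h
      have h1 : D'.arc y z := by simpa [arcs] using h
      exact h1.2 ⟨hy, Finset.mem_sdiff.2 ⟨hzL, hzT⟩⟩
  · intro p hp
    have h1 : D'.arc p.1 p.2 := by simpa [arcs] using hp
    have h2 : D.arc p.1 p.2 := h1.1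
    simp [arcs, h2]

theorem not_CE [Nonempty V] : ∀ (n : ℕ) (D : OGraph V), (arcs D).card = n → ¬ CE D := by
  intro n
  induction n using Nat.strong_induction_on with
  | _ n ih =>
  intro D hn hD
  have hmin : ∀ D' : OGraph V, (arcs D').card < (arcs D).card → ¬ CE D' := by
    intro D' h'
    rw [hn] at h'
    exact ih _ h' D' rfl
  refine step6 (D := D) ?_ (fun S hS => stepG hD hmin S hS)
  intro v
  have h1 := hD v
  have h2 : (N1 D v).Nonempty := Finset.card_pos.1 (by omega)
  obtain ⟨u, hu⟩ := h2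
  exact ⟨u, mem_N1.1 hu⟩

/-- Seymour's second neighbourhood conjecture. -/
theorem snc [Nonempty V] (D : OGraph V) : ∃ v, (N1 D v).card ≤ (N2 D v).card := by
  by_contra hcon
  push Not at hcon
  exact not_CE _ D rfl hcon

end Vale.Agent.P038.H674
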