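import Vale.Agent.P038.Defs

/-!
# A monotonicity lemma for submodular functions and two families of sets
-/

namespace Vale.Agent.P038.H674

open Finset

variable {V : Type*} [Fintype V] [DecidableEq V]

/-- The intersection of the sets `P y` over `y ∈ I a`. -/
def capF (I : V → Finset V) (P : V → Finset V) (a : V) : Finset V :=
  univ.filter fun x => ∀ y ∈ I a, x ∈ P y

theorem mem_capF {I P : V → Finset V} {a x : V} : x ∈ capF I P a ↔ ∀ y ∈ I a, x ∈ P y := by
  simp [capF]

theorem capF_min {I P Ph : V → Finset V} {f : Finset V → ℝ}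
    (hsub : ∀ S T, f (S ∪ T) + f (S ∩ T) ≤ f S + f T)
    (hH : ∀ y S, P y ⊆ S → S ⊆ Ph y → f (P y) ≤ f S) (hPP : ∀ y, P y ⊆ Ph y)
    (a : V) (S : Finset V) (h1 : capF I P a ⊆ S) (h2 : S ⊆ capF I Ph a) :
    f (capF I P a) ≤ f S := by
  have key : ∀ J : Finset V, J ⊆ I a → f (S.filter fun x => ∀ y ∈ J, x ∈ P y) ≤ f S := by
    intro J
    induction J using Finset.induction_on with
    | empty => intro _; simp
    | insert y J hy ih =>
      intro hJ
      have hyI : y ∈ I a := hJ (Finset.mem_insert_self _ _)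
      have hJ' : J ⊆ I a := fun z hz => hJ (Finset.mem_insert_of_mem hz)
      have hih := ih hJ'
      set T := S.filter fun x => ∀ y ∈ J, x ∈ P y with hT
      have e : (S.filter fun x => ∀ z ∈ insert y J, x ∈ P z) = T ∩ P y := by
        ext x
        simp only [hT, Finset.mem_filter, Finset.mem_inter, Finset.mem_insert, forall_eq_or_imp]
        tauto
      rw [e]
      have h3 := hsub T (P y)
      have h4 : f (P y) ≤ f (T ∪ P y) := by
        apply hH y
        · exact Finset.subset_union_right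
        · refine Finset.union_subset ?_ (hPP y)
          intro x hx
          exact mem_capF.1 (h2 (Finset.mem_filter.1 hx).1) y hyI
      linarith
  have h3 := key (I a) (Finset.Subset.refl _)
  have e : (S.filter fun x => ∀ y ∈ I a, x ∈ P y) = capF I P a := by
    ext x
    rw [Finset.mem_filter, mem_capF]
    exact ⟨fun h => h.2, fun h => ⟨h1 (mem_capF.2 h), h⟩⟩
  rwa [e] at h3

theorem sum_card_swap (A : V → Finset V) :
    ∑ a, (A a).card = ∑ x, (univ.filter fun a => x ∈ A a).card := by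
  simp only [Finset.card_eq_sum_ones, Finset.sum_filter]
  rw [Finset.sum_comm]
  refine Finset.sum_congr rfl fun x _ => ?_
  rw [← Finset.sum_filter]
  simp

theorem lemL (I : V → Finset V) (Ph : V → Finset V) :
    ∀ (m : ℕ) (f : Finset V → ℝ) (P : V → Finset V),
      (∀ S T, f (S ∪ T) + f (S ∩ T) ≤ f S + f T) →
      (∀ y, P y ⊆ Ph y) →
      (∀ y S, P y ⊆ S → S ⊆ Ph y → f (P y) ≤ f S) →
      (∀ x (K : Finset V), (∀ y ∈ K, x ∈ Ph y ∧ x ∉ P y) →
        K.card ≤ (univ.filter fun a => x ∈ capF I Ph a ∧ ∃ y ∈ I a, y ∈ K).card) →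
      ∑ y, (Ph y \ P y).card = m →
      ∑ y, (f (Ph y) - f (P y)) ≤ ∑ a, (f (capF I Ph a) - f (capF I P a)) := by
  intro m
  induction m using Nat.strong_induction_on with
  | _ m ih =>
  intro f P hsub hPP hH2 hH1 hm
  by_cases hall : ∀ y, Ph y ⊆ P y
  · have hPe : P = Ph := by
      funext y
      exact Finset.Subset.antisymm (hPP y) (hall y)
    subst hPe
    simp
  push Not at hall
  obtain ⟨y1, hy1⟩ := hall
  -- the minimal density
  set C : Finset (V × Finset V) := univ.filter fun p => P p.1 ⊂ p.2 ∧ p.2 ⊆ Ph p.1 with hC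
  have hCne : C.Nonempty := by
    refine ⟨(y1, Ph y1), ?_⟩
    rw [hC, Finset.mem_filter]
    refine ⟨Finset.mem_univ _, ?_, Finset.Subset.refl _⟩
    exact ⟨hPP y1, hy1⟩
  obtain ⟨⟨y0, S0⟩, hp0, hmin⟩ := Finset.exists_min_image C
    (fun p => (f p.2 - f (P p.1)) / ((p.2 \ P p.1).card : ℝ)) hCne
  rw [hC, Finset.mem_filter] at hp0
  obtain ⟨-, hPS0, hSP0⟩ := hp0
  simp only at hPS0 hSP0
  set t : ℝ := (f S0 - f (P y0)) / ((S0 \ P y0).card : ℝ) with ht
  have hcpos : ∀ (A B : Finset V), A ⊂ B → (0 : ℝ) < ((B \ A).card : ℝ) := by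
    intro A B hAB
    have : (B \ A).Nonempty := by
      rw [Finset.sdiff_nonempty]
      exact hAB.2
    exact_mod_cast Finset.card_pos.2 this
  have hcard : ∀ (A B : Finset V), A ⊆ B → ((B \ A).card : ℝ) = (B.card : ℝ) - (A.card : ℝ) := by
    intro A B hAB
    rw [Finset.card_sdiff_of_subset hAB, Nat.cast_sub (Finset.card_le_card hAB)]
  have ht0 : 0 ≤ t := by
    rw [ht]
    refine div_nonneg ?_ (Nat.cast_nonneg _)
    have := hH2 y0 S0 hPS0.1 hSP0
    linarith
  set f1 : Finset V → ℝ := fun S => f S - t * (S.card : ℝ) with hf1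
  have hsub1 : ∀ S T, f1 (S ∪ T) + f1 (S ∩ T) ≤ f1 S + f1 T := by
    intro S T
    have h1 := hsub S T
    have h2 : ((S ∪ T).card : ℝ) + ((S ∩ T).card : ℝ) = (S.card : ℝ) + (T.card : ℝ) := by
      exact_mod_cast Finset.card_union_add_card_inter S T
    simp only [hf1]
    nlinarith [h1, h2, congrArg (fun z => t * z) h2]
  have hH1' : ∀ y S, P y ⊆ S → S ⊆ Ph y → f1 (P y) ≤ f1 S := by
    intro y S h1 h2
    rcases eq_or_ne (P y) S with h3 | h3
    · rw [← h3]
    · have hss : P y ⊂ S := lt_of_le_of_ne h1 h3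
      have h4 := hmin (y, S) (by
        rw [hC, Finset.mem_filter]
        exact ⟨Finset.mem_univ _, hss, h2⟩)
      simp only at h4
      rw [le_div_iff₀ (hcpos _ _ hss), hcard _ _ h1] at h4
      simp only [hf1]
      linarith
  have hS0 : f1 S0 = f1 (P y0) := by
    have h1 : t * ((S0 \ P y0).card : ℝ) = f S0 - f (P y0) := by
      rw [ht]
      exact div_mul_cancel₀ _ (ne_of_gt (hcpos _ _ hPS0))
    rw [hcard _ _ hPS0.1] at h1
    simp only [hf1]
    linarith
  set P1 : V → Finset V := Function.update P y0 S0 with hP1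
  have hP1e : ∀ y, f1 (P1 y) = f1 (P y) := by
    intro y
    by_cases hy : y = y0
    · subst hy
      rw [hP1, Function.update_self]
      exact hS0
    · rw [hP1, Function.update_of_ne hy]
  have hPP1 : ∀ y, P y ⊆ P1 y := by
    intro y
    by_cases hy : y = y0
    · subst hy
      rw [hP1, Function.update_self]
      exact hPS0.1
    · rw [hP1, Function.update_of_ne hy]
  have hP1Ph : ∀ y, P1 y ⊆ Ph y := by
    intro y
    by_cases hy : y = y0
    · subst hy
      rw [hP1, Function.update_self]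
      exact hSP0
    · rw [hP1, Function.update_of_ne hy]
      exact hPP y
  have hlt : ∑ y, (Ph y \ P1 y).card < m := by
    rw [← hm]
    refine Finset.sum_lt_sum (fun y _ => ?_) ⟨y0, Finset.mem_univ _, ?_⟩
    · exact Finset.card_le_card (Finset.sdiff_subset_sdiff (Finset.Subset.refl _) (hPP1 y))
    · rw [hP1, Function.update_self]
      refine Finset.card_lt_card ?_
      rw [Finset.ssubset_iff_of_subset
        (Finset.sdiff_subset_sdiff (Finset.Subset.refl _) hPS0.1)]
      obtain ⟨x, hx1, hx2⟩ := Finset.exists_of_ssubset hPS0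
      exact ⟨x, Finset.mem_sdiff.2 ⟨hSP0 hx1, hx2⟩, fun h => (Finset.mem_sdiff.1 h).2 hx1⟩
  have hIH := ih _ hlt f1 P1 hsub1 hP1Ph
    (by
      intro y S h1 h2
      rw [hP1e]
      exact hH1' y S (Finset.Subset.trans (hPP1 y) h1) h2)
    (by
      intro x K hK
      exact hH1 x K fun y hy => ⟨(hK y hy).1, fun h => (hK y hy).2 (hPP1 y h)⟩)
    rfl
  -- compare
  have hX1 : ∀ a, f1 (capF I P a) ≤ f1 (capF I P1 a) := by
    intro a
    refine capF_min hsub1 hH1' hPP a _ ?_ ?_
    · intro x hx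
      rw [mem_capF] at hx ⊢
      exact fun y hy => hPP1 y (hx y hy)
    · intro x hx
      rw [mem_capF] at hx ⊢
      exact fun y hy => hP1Ph y (hx y hy)
  have hsum1 : ∑ y, (f1 (Ph y) - f1 (P y)) ≤ ∑ a, (f1 (capF I Ph a) - f1 (capF I P a)) := by
    calc ∑ y, (f1 (Ph y) - f1 (P y)) = ∑ y, (f1 (Ph y) - f1 (P1 y)) := by
          refine Finset.sum_congr rfl fun y _ => ?_
          rw [hP1e]
      _ ≤ ∑ a, (f1 (capF I Ph a) - f1 (capF I P1 a)) := hIH
      _ ≤ ∑ a, (f1 (capF I Ph a) - f1 (capF I P a)) := by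
          refine Finset.sum_le_sum fun a _ => ?_
          have := hX1 a
          linarith
  -- counting
  have hcapsub : ∀ a, capF I P a ⊆ capF I Ph a := by
    intro a x hx
    rw [mem_capF] at hx ⊢
    exact fun y hy => hPP y (hx y hy)
  have hcount : ∑ y, (Ph y \ P y).card ≤ ∑ a, (capF I Ph a \ capF I P a).card := by
    rw [sum_card_swap, sum_card_swap (fun a => capF I Ph a \ capF I P a)]
    refine Finset.sum_le_sum fun x _ => ?_
    refine (hH1 x (univ.filter fun y => x ∈ Ph y \ P y) ?_).trans ?_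
    · intro y hy
      exact Finset.mem_sdiff.1 (Finset.mem_filter.1 hy).2
    · refine Finset.card_le_card ?_
      intro a ha
      obtain ⟨-, ha1, y, hy1, hy2⟩ := Finset.mem_filter.1 ha
      refine Finset.mem_filter.2 ⟨Finset.mem_univ _, Finset.mem_sdiff.2 ⟨ha1, ?_⟩⟩
      intro h
      exact (Finset.mem_sdiff.1 (Finset.mem_filter.1 hy2).2).2 (mem_capF.1 h y hy1)
  have hcountR : ∑ y, (((Ph y).card : ℝ) - ((P y).card : ℝ)) ≤
      ∑ a, (((capF I Ph a).card : ℝ) - ((capF I P a).card : ℝ)) := by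
    have h1 : ((∑ y, (Ph y \ P y).card : ℕ) : ℝ) ≤
        ((∑ a, (capF I Ph a \ capF I P a).card : ℕ) : ℝ) := by exact_mod_cast hcount
    push_cast at h1
    calc ∑ y, (((Ph y).card : ℝ) - ((P y).card : ℝ)) = ∑ y, ((Ph y \ P y).card : ℝ) :=
          Finset.sum_congr rfl fun y _ => (hcard _ _ (hPP y)).symm
      _ ≤ ∑ a, ((capF I Ph a \ capF I P a).card : ℝ) := h1
      _ = _ := Finset.sum_congr rfl fun a _ => hcard _ _ (hcapsub a)
  have e1 : ∑ y, (f (Ph y) - f (P y)) = ∑ y, (f1 (Ph y) - f1 (P y)) +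
      t * ∑ y, (((Ph y).card : ℝ) - ((P y).card : ℝ)) := by
    rw [Finset.mul_sum, ← Finset.sum_add_distrib]
    refine Finset.sum_congr rfl fun y _ => ?_
    simp only [hf1]
    ring
  have e2 : ∑ a, (f (capF I Ph a) - f (capF I P a)) =
      ∑ a, (f1 (capF I Ph a) - f1 (capF I P a)) +
      t * ∑ a, (((capF I Ph a).card : ℝ) - ((capF I P a).card : ℝ)) := by
    rw [Finset.mul_sum, ← Finset.sum_add_distrib]
    refine Finset.sum_congr rfl fun y _ => ?_
    simp only [hf1]
    ring
  rw [e1, e2]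
  have := mul_le_mul_of_nonneg_left hcountR ht0
  linarith

end Vale.Agent.P038.H674
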