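import Vale.Agent.P038.H674.Lem

/-!
# Seymour's second neighbourhood conjecture: the minimiser argument
-/

namespace Vale.Agent.P038.H674

open Finset

variable {V : Type*} [Fintype V]

open Classical in
/-- The closed out-neighbourhood of a set. -/
noncomputable def cl (D : OGraph V) (S : Finset V) : Finset V :=
  univ.filter fun x => x ∈ S ∨ ∃ y ∈ S, D.arc y x

open Classical in
/-- The closed in-neighbourhood of a vertex. -/
noncomputable def inn (D : OGraph V) (a : V) : Finset V :=
  univ.filter fun y => y = a ∨ D.arc y a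

/-- The number of vertices in the outer boundary of `S`. -/
noncomputable def cc (D : OGraph V) (S : Finset V) : ℝ := ((cl D S).card : ℝ) - (S.card : ℝ)

theorem mem_cl {D : OGraph V} {S : Finset V} {x : V} :
    x ∈ cl D S ↔ x ∈ S ∨ ∃ y ∈ S, D.arc y x := by
  classical
  simp [cl]

theorem mem_inn {D : OGraph V} {a y : V} : y ∈ inn D a ↔ y = a ∨ D.arc y a := by
  classical
  simp [inn]

theorem self_mem_inn (D : OGraph V) (a : V) : a ∈ inn D a := mem_inn.2 (Or.inl rfl)

theorem mem_cl' {D : OGraph V} {S : Finset V} {x : V} :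
    x ∈ cl D S ↔ ∃ y ∈ S, y ∈ inn D x := by
  rw [mem_cl]
  constructor
  · rintro (h | ⟨y, hy, h⟩)
    · exact ⟨x, h, self_mem_inn D x⟩
    · exact ⟨y, hy, mem_inn.2 (Or.inr h)⟩
  · rintro ⟨y, hy, h⟩
    rcases mem_inn.1 h with h | h
    · exact Or.inl (h ▸ hy)
    · exact Or.inr ⟨y, hy, h⟩

theorem subset_cl (D : OGraph V) (S : Finset V) : S ⊆ cl D S := fun _ hx => mem_cl.2 (Or.inl hx)

theorem cl_mono (D : OGraph V) {S T : Finset V} (h : S ⊆ T) : cl D S ⊆ cl D T := by
  intro x hx
  obtain ⟨y, hy, h2⟩ := mem_cl'.1 hx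
  exact mem_cl'.2 ⟨y, h hy, h2⟩

theorem cc_eq [DecidableEq V] (D : OGraph V) (S : Finset V) :
    cc D S = ((cl D S \ S).card : ℝ) := by
  rw [cc, Finset.card_sdiff_of_subset (subset_cl D S),
    Nat.cast_sub (Finset.card_le_card (subset_cl D S))]

theorem cc_submod [DecidableEq V] (D : OGraph V) (S T : Finset V) :
    cc D (S ∪ T) + cc D (S ∩ T) ≤ cc D S + cc D T := by
  have h1 : ((S ∪ T).card : ℝ) + ((S ∩ T).card : ℝ) = (S.card : ℝ) + (T.card : ℝ) := by
    exact_mod_cast Finset.card_union_add_card_inter S T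
  have h2 : ((cl D S ∪ cl D T).card : ℝ) + ((cl D S ∩ cl D T).card : ℝ) =
      ((cl D S).card : ℝ) + ((cl D T).card : ℝ) := by
    exact_mod_cast Finset.card_union_add_card_inter _ _
  have h3 : ((cl D (S ∪ T)).card : ℝ) ≤ ((cl D S ∪ cl D T).card : ℝ) := by
    exact_mod_cast Finset.card_le_card (by
      intro x hx
      obtain ⟨y, hy, h⟩ := mem_cl'.1 hx
      rcases Finset.mem_union.1 hy with hy | hy
      · exact Finset.mem_union_left _ (mem_cl'.2 ⟨y, hy, h⟩)
      · exact Finset.mem_union_right _ (mem_cl'.2 ⟨y, hy, h⟩))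
  have h4 : ((cl D (S ∩ T)).card : ℝ) ≤ ((cl D S ∩ cl D T).card : ℝ) := by
    exact_mod_cast Finset.card_le_card (Finset.subset_inter
      (cl_mono D Finset.inter_subset_left) (cl_mono D Finset.inter_subset_right))
  simp only [cc]
  linarith

/-- An admissible pair of families. -/
structure Adm (D : OGraph V) (P R : V → Finset V) : Prop where
  memP : ∀ a x, a ∈ inn D x → x ∈ P a
  memR : ∀ a x, a ∈ inn D x → x ∈ R a
  disj : ∀ a b, a ≠ b → b ∈ P a → a ∈ R b → False

theorem Adm.symm {D : OGraph V} {P R : V → Finset V} (h : Adm D P R) : Adm D R P :=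
  ⟨h.memR, h.memP, fun a b hab h1 h2 => h.disj b a hab.symm h2 h1⟩

/-- The energy of a pair. -/
noncomputable def EE (D : OGraph V) (P R : V → Finset V) : ℝ :=
  ∑ a, cc D (P a) + ∑ b, cc D (R b)

theorem EE_comm (D : OGraph V) (P R : V → Finset V) : EE D P R = EE D R P := by
  simp only [EE]
  ring

theorem sum_update [DecidableEq V] (g : Finset V → ℝ) (P : V → Finset V) (y : V) (S : Finset V) :
    ∑ a, g (Function.update P y S a) = ∑ a, g (P a) - g (P y) + g S := by
  rw [← Finset.add_sum_erase univ _ (Finset.mem_univ y),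
    ← Finset.add_sum_erase univ (fun a => g (P a)) (Finset.mem_univ y), Function.update_self]
  have : ∑ x ∈ univ.erase y, g (Function.update P y S x) = ∑ x ∈ univ.erase y, g (P x) := by
    refine Finset.sum_congr rfl fun x hx => ?_
    rw [Function.update_of_ne (Finset.ne_of_mem_erase hx)]
  rw [this]
  ring

/-- A minimising admissible pair: an admissible enlargement of one row does not help. -/
theorem row_opt [DecidableEq V] {D : OGraph V} {P R : V → Finset V} (h : Adm D P R)
    (hmin : ∀ P' R', Adm D P' R' → EE D P R ≤ EE D P' R')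
    (y : V) (S : Finset V) (h1 : P y ⊆ S) (h2 : ∀ x ∈ S, x = y ∨ y ∉ R x) :
    cc D (P y) ≤ cc D S := by
  have hA : Adm D (Function.update P y S) R := by
    refine ⟨fun a x hax => ?_, h.memR, fun a b hab hb ha => ?_⟩
    · by_cases hay : a = y
      · subst hay
        rw [Function.update_self]
        exact h1 (h.memP a x hax)
      · rw [Function.update_of_ne hay]
        exact h.memP a x hax
    · by_cases hay : a = y
      · subst hay
        rw [Function.update_self] at hb
        rcases h2 b hb with h3 | h3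
        · exact hab h3.symm
        · exact h3 ha
      · rw [Function.update_of_ne hay] at hb
        exact h.disj a b hab hb ha
  have h3 := hmin _ _ hA
  simp only [EE] at h3
  rw [sum_update (cc D)] at h3
  linarith

/-- The complementary family. -/
noncomputable def Phat [DecidableEq V] (R : V → Finset V) (y : V) : Finset V :=
  univ.filter fun x => x = y ∨ y ∉ R x

theorem mem_Phat [DecidableEq V] {R : V → Finset V} {y x : V} :
    x ∈ Phat R y ↔ x = y ∨ y ∉ R x := by
  simp [Phat]

theorem mem_capPhat [DecidableEq V] {D : OGraph V} {P R : V → Finset V} (h : Adm D P R) (a : V) :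
    a ∈ capF (inn D) (Phat R) a := by
  rw [mem_capF]
  intro y hy
  rw [mem_Phat]
  by_cases hya : a = y
  · exact Or.inl hya
  · exact Or.inr fun h1 => h.disj y a (Ne.symm hya) (h.memP y a hy) h1

/-- Step 4. -/
theorem step4 [DecidableEq V] {D : OGraph V} {P R : V → Finset V} (h : Adm D P R)
    (hmin : ∀ P' R', Adm D P' R' → EE D P R ≤ EE D P' R') :
    EE D (capF (inn D) P) (capF (inn D) R) ≤ EE D P R := by
  have hRmin : ∀ P' R', Adm D P' R' → EE D R P ≤ EE D P' R' := by
    intro P' R' h'
    rw [EE_comm D R P]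
    exact hmin P' R' h'
  have hPPh : ∀ y, P y ⊆ Phat R y := by
    intro y x hx
    rw [mem_Phat]
    by_cases hxy : x = y
    · exact Or.inl hxy
    · exact Or.inr fun h1 => h.disj y x (Ne.symm hxy) hx h1
  have hL := lemL (inn D) (Phat R) _ (cc D) P (cc_submod D) hPPh
    (by
      intro y S h1 h2
      exact row_opt h hmin y S h1 fun x hx => mem_Phat.1 (h2 hx))
    (by
      intro x K hK
      have hK1 : ∀ y ∈ K, y ∉ R x := by
        intro y hy hyR
        obtain ⟨h1, h2⟩ := hK y hy
        rcases mem_Phat.1 h1 with h3 | h3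
        · subst h3
          exact h2 (h.memP _ _ (self_mem_inn D _))
        · exact h3 hyR
      have h1 := row_opt h.symm hRmin x (R x ∪ K) Finset.subset_union_left (by
        intro y hy
        by_cases hyx : y = x
        · exact Or.inl hyx
        · right
          rcases Finset.mem_union.1 hy with hy | hy
          · intro h2
            exact h.disj y x hyx h2 hy
          · exact (hK y hy).2)
      set T := univ.filter fun a => x ∈ capF (inn D) (Phat R) a ∧ ∃ y ∈ inn D a, y ∈ K with hT
      have h2 : (cl D (R x ∪ K)).card ≤ (cl D (R x)).card + T.card := by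
        refine (Finset.card_le_card ?_).trans (Finset.card_union_le _ _)
        intro a ha
        by_cases haR : a ∈ cl D (R x)
        · exact Finset.mem_union_left _ haR
        · refine Finset.mem_union_right _ ?_
          obtain ⟨y, hy, hya⟩ := mem_cl'.1 ha
          have hyK : y ∈ K := by
            rcases Finset.mem_union.1 hy with hy | hy
            · exact absurd (mem_cl'.2 ⟨y, hy, hya⟩) haR
            · exact hy
          rw [hT, Finset.mem_filter]
          refine ⟨Finset.mem_univ _, ?_, y, hya, hyK⟩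
          rw [mem_capF]
          intro z hz
          rw [mem_Phat]
          exact Or.inr fun h3 => haR (mem_cl'.2 ⟨z, h3, hz⟩)
      have h3 : (R x ∪ K).card = (R x).card + K.card := by
        apply Finset.card_union_of_disjoint
        rw [Finset.disjoint_left]
        intro y hy hyK
        exact hK1 y hyK hy
      have h2' : ((cl D (R x ∪ K)).card : ℝ) ≤ ((cl D (R x)).card : ℝ) + (T.card : ℝ) := by
        exact_mod_cast h2
      have h3' : ((R x ∪ K).card : ℝ) = ((R x).card : ℝ) + (K.card : ℝ) := by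
        exact_mod_cast h3
      simp only [cc] at h1
      have : (K.card : ℝ) ≤ (T.card : ℝ) := by linarith
      exact_mod_cast this)
    rfl
  -- (a)
  have ha : ∑ b, cc D (R b) = ∑ a, ((Phat R a \ capF (inn D) (Phat R) a).card : ℝ) := by
    have h1 : ∑ b, (cl D (R b) \ R b).card = ∑ a, (Phat R a \ capF (inn D) (Phat R) a).card := by
      rw [sum_card_swap]
      refine Finset.sum_congr rfl fun a _ => ?_
      congr 1
      ext b
      rw [Finset.mem_filter, Finset.mem_sdiff, Finset.mem_sdiff]
      constructor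
      · rintro ⟨-, h1, h2⟩
        refine ⟨mem_Phat.2 (Or.inr h2), fun h3 => ?_⟩
        obtain ⟨y, hy, hya⟩ := mem_cl'.1 h1
        rcases mem_Phat.1 (mem_capF.1 h3 y hya) with h4 | h4
        · subst h4
          exact h2 (h.memR _ _ hya)
        · exact h4 hy
      · rintro ⟨h1, h2⟩
        have hba : b ≠ a := by
          rintro rfl
          exact h2 (mem_capPhat h _)
        have haR : a ∉ R b := (mem_Phat.1 h1).resolve_left hba
        refine ⟨Finset.mem_univ _, ?_, haR⟩
        rw [mem_capF] at h2
        push Not at h2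
        obtain ⟨y, hya, hy⟩ := h2
        rw [mem_Phat] at hy
        push Not at hy
        exact mem_cl'.2 ⟨y, hy.2, hya⟩
    have h2 : ((∑ b, (cl D (R b) \ R b).card : ℕ) : ℝ) =
        ((∑ a, (Phat R a \ capF (inn D) (Phat R) a).card : ℕ) : ℝ) := by rw [h1]
    push_cast at h2
    rw [← h2]
    exact Finset.sum_congr rfl fun b _ => cc_eq D _
  -- (b)
  have hb : ∑ b, cc D (capF (inn D) R b) ≤
      ∑ a, ((cl D (Phat R a) \ cl D (capF (inn D) (Phat R) a)).card : ℝ) := by
    have h1 : ∑ b, (cl D (capF (inn D) R b) \ capF (inn D) R b).card ≤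
        ∑ a, (cl D (Phat R a) \ cl D (capF (inn D) (Phat R) a)).card := by
      rw [sum_card_swap]
      refine Finset.sum_le_sum fun a _ => Finset.card_le_card ?_
      intro b hb
      obtain ⟨-, hb⟩ := Finset.mem_filter.1 hb
      obtain ⟨hb1, hb2⟩ := Finset.mem_sdiff.1 hb
      refine Finset.mem_sdiff.2 ⟨?_, ?_⟩
      · rw [mem_capF] at hb2
        push Not at hb2
        obtain ⟨x, hx, hxa⟩ := hb2
        exact mem_cl'.2 ⟨x, mem_Phat.2 (Or.inr hxa), hx⟩
      · intro h3
        obtain ⟨z, hz, hzb⟩ := mem_cl'.1 h3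
        obtain ⟨y, hy, hya⟩ := mem_cl'.1 hb1
        rw [mem_capF] at hy
        have hyz : y ∈ R z := hy z hzb
        have hzy : z = y := by
          rcases mem_Phat.1 (mem_capF.1 hz y hya) with h4 | h4
          · exact h4
          · exact absurd hyz h4
        subst hzy
        rcases mem_Phat.1 (mem_capF.1 hz a (self_mem_inn D a)) with h4 | h4
        · subst h4
          exact hb2 (mem_capF.2 hy)
        · exact h4 (h.memR _ _ hya)
    have h2 : ((∑ b, (cl D (capF (inn D) R b) \ capF (inn D) R b).card : ℕ) : ℝ) ≤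
        ((∑ a, (cl D (Phat R a) \ cl D (capF (inn D) (Phat R) a)).card : ℕ) : ℝ) := by
      exact_mod_cast h1
    push_cast at h2
    refine le_trans (le_of_eq ?_) h2
    exact Finset.sum_congr rfl fun b _ => cc_eq D _
  -- (a) - (b)
  have hcapsub : ∀ a, capF (inn D) (Phat R) a ⊆ Phat R a :=
    fun a x hx => mem_capF.1 hx a (self_mem_inn D a)
  have hcd : ∀ (A B : Finset V), A ⊆ B → ((B \ A).card : ℝ) = (B.card : ℝ) - (A.card : ℝ) := by
    intro A B hAB
    rw [Finset.card_sdiff_of_subset hAB, Nat.cast_sub (Finset.card_le_card hAB)]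
  have hab : ∑ a, (cc D (capF (inn D) (Phat R) a) - cc D (Phat R a)) =
      ∑ a, ((Phat R a \ capF (inn D) (Phat R) a).card : ℝ) -
      ∑ a, ((cl D (Phat R a) \ cl D (capF (inn D) (Phat R) a)).card : ℝ) := by
    rw [← Finset.sum_sub_distrib]
    refine Finset.sum_congr rfl fun a _ => ?_
    rw [hcd _ _ (hcapsub a), hcd _ _ (cl_mono D (hcapsub a))]
    simp only [cc]
    ring
  simp only [Finset.sum_sub_distrib] at hL hab
  simp only [EE]
  linarith

/-- Step 5. -/
theorem step5 [DecidableEq V] {D : OGraph V} {P R : V → Finset V} (h : Adm D P R) :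
    Adm D (fun a => cl D (capF (inn D) P a)) (fun b => cl D (capF (inn D) R b)) := by
  refine ⟨fun a x hax => ?_, fun a x hax => ?_, fun a b hab hb ha => ?_⟩
  · exact mem_cl'.2 ⟨a, mem_capF.2 fun y hy => h.memP y a hy, hax⟩
  · exact mem_cl'.2 ⟨a, mem_capF.2 fun y hy => h.memR y a hy, hax⟩
  · obtain ⟨x, hx, hxb⟩ := mem_cl'.1 hb
    obtain ⟨y, hy, hya⟩ := mem_cl'.1 ha
    rw [mem_capF] at hx hy
    have h1 : x ∈ P y := hx y hya
    have h2 : y ∈ R x := hy x hxb
    have hxy : y = x := by
      by_contra hne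
      exact h.disj y x hne h1 h2
    subst hxy
    have h3 : y ∈ P a := hx a (self_mem_inn D a)
    have h4 : y ∈ R b := hy b (self_mem_inn D b)
    by_cases hya' : y = a
    · subst hya'
      exact h.disj y b hab (h.memP _ _ hxb) h4
    · exact h.disj a y (Ne.symm hya') h3 (h.memR _ _ hya)

/-- Step 6: no oriented graph in which all out-degrees are positive satisfies (G). -/
theorem step6 {D : OGraph V} [Nonempty V] (hout : ∀ v, ∃ u, D.arc v u)
    (hG : ∀ S : Finset V, cl D S ≠ S → cc D (cl D S) < cc D S) : False := by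
  classical
  -- the minimiser
  have hne : (univ.filter fun p : (V → Finset V) × (V → Finset V) => Adm D p.1 p.2).Nonempty := by
    refine ⟨(fun a => cl D {a}, fun a => cl D {a}), ?_⟩
    rw [Finset.mem_filter]
    refine ⟨Finset.mem_univ _, ?_, ?_, ?_⟩
    · intro a x hax
      exact mem_cl'.2 ⟨a, Finset.mem_singleton_self _, hax⟩
    · intro a x hax
      exact mem_cl'.2 ⟨a, Finset.mem_singleton_self _, hax⟩
    · intro a b hab hb ha
      simp only [mem_cl, Finset.mem_singleton, exists_eq_left] at hb ha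
      rcases hb with hb | hb
      · exact hab hb.symm
      rcases ha with ha | ha
      · exact hab ha
      · exact D.asymm _ _ hb ha
  obtain ⟨⟨P, R⟩, hPR, hmin⟩ := Finset.exists_min_image _
    (fun p : (V → Finset V) × (V → Finset V) => EE D p.1 p.2) hne
  rw [Finset.mem_filter] at hPR
  have h : Adm D P R := hPR.2
  have hmin' : ∀ P' R', Adm D P' R' → EE D P R ≤ EE D P' R' := by
    intro P' R' h'
    exact hmin (P', R') (Finset.mem_filter.2 ⟨Finset.mem_univ _, h'⟩)
  set X := capF (inn D) P with hX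
  set Y := capF (inn D) R with hY
  have h4 := step4 h hmin'
  have h5 := hmin' _ _ (step5 h)
  have hle : ∀ S : Finset V, cc D (cl D S) ≤ cc D S := by
    intro S
    by_cases hS : cl D S = S
    · rw [hS]
    · exact (hG S hS).le
  have hYle : ∑ b, cc D (cl D (Y b)) ≤ ∑ b, cc D (Y b) := Finset.sum_le_sum fun b _ => hle _
  have hXle : ∑ b, cc D (cl D (X b)) ≤ ∑ b, cc D (X b) := Finset.sum_le_sum fun b _ => hle _
  simp only [EE] at h4 h5
  have hclosed : ∀ a, cl D (X a) = X a := by
    by_contra hcon
    push Not at hcon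
    obtain ⟨a0, ha0⟩ := hcon
    have : ∑ b, cc D (cl D (X b)) < ∑ b, cc D (X b) :=
      Finset.sum_lt_sum (fun b _ => hle _) ⟨a0, Finset.mem_univ _, hG _ ha0⟩
    linarith
  -- a minimal closed set
  have hne2 : (univ.filter fun S : Finset V => S.Nonempty ∧ cl D S ⊆ S).Nonempty := by
    refine ⟨univ, ?_⟩
    rw [Finset.mem_filter]
    exact ⟨Finset.mem_univ _, Finset.univ_nonempty, Finset.subset_univ _⟩
  obtain ⟨S, hS, hSmin⟩ := Finset.exists_min_image _ Finset.card hne2
  rw [Finset.mem_filter] at hS
  obtain ⟨-, ⟨a, haS⟩, hScl⟩ := hS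
  obtain ⟨b, hab⟩ := hout a
  have hbS : b ∈ S := hScl (mem_cl.2 (Or.inr ⟨a, haS, hab⟩))
  have hbX : b ∈ X b := mem_capF.2 fun y hy => h.memP y b hy
  have hcl2 : cl D (X b ∩ S) ⊆ X b ∩ S := by
    refine Finset.subset_inter ?_ ?_
    · exact (cl_mono D Finset.inter_subset_left).trans (hclosed b).le
    · exact (cl_mono D Finset.inter_subset_right).trans hScl
  have h6 := hSmin (X b ∩ S) (Finset.mem_filter.2 ⟨Finset.mem_univ _,
    ⟨b, Finset.mem_inter.2 ⟨hbX, hbS⟩⟩, hcl2⟩)
  have h7 : X b ∩ S = S := Finset.eq_of_subset_of_card_le Finset.inter_subset_right h6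
  have h8 : a ∈ X b := by
    have : a ∈ X b ∩ S := by rw [h7]; exact haS
    exact (Finset.mem_inter.1 this).1
  have h9 : a ∈ P b := mem_capF.1 h8 b (self_mem_inn D b)
  have hba : b ≠ a := by
    rintro rfl
    exact D.loopless _ hab
  exact h.disj b a hba h9 (h.memR a b (mem_inn.2 (Or.inr hab)))

end Vale.Agent.P038.H674
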